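import Vale.Agent.P011.D4W.Defs
import Vale.Agent.P011.D4Y.H64.Even

/-!
Block D4W: the primes of even local degree over a given prime, and the classes modulo the local
norms there.
-/

open NumberField IsDedekindDomain

namespace Vale.Agent.P011.D4W.H183

open Vale.Agent.P011.Arith Vale.Agent.P011.D4 Vale.Agent.P011.MPQ Vale.Agent.P011.D4X
  Vale.Agent.P011.D4Y

variable {k L : Type} [Field k] [NumberField k] [Field L] [NumberField L] [Algebra k L]

/-- There is at most one bad prime over `v`. -/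
theorem bad_unique (h3 : Module.finrank k L = 3) {a : kˣ} {q : Lˣ}
    {v : HeightOneSpectrum (𝓞 k)} {w w' : HeightOneSpectrum (𝓞 L)} (h : Bad a q v w)
    (h' : Bad a q v w') : w = w' := by
  by_contra hne
  exact h.2.2 (odd_of_other h3 h.1 h'.1 hne h'.2.2)

/-- The local norms have index at most two. -/
theorem mul_inv_mem_of_not {a κ κ1 : Lˣ} {w : HeightOneSpectrum (𝓞 L)}
    (h : κ ∉ NF a ⊔ LS (w.valuation L)) (h1 : κ1 ∉ NF a ⊔ LS (w.valuation L)) :
    κ * κ1⁻¹ ∈ NF a ⊔ LS (w.valuation L) := by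
  have ha : a ∉ LS (w.valuation L) := by
    intro ha
    apply h
    rw [NF_sup_of_mem' _ ha]
    exact Subgroup.mem_top _
  rw [Subgroup.mul_mem_iff_of_index_two (local_index_two w a ha)]
  exact ⟨fun h2 => absurd h2 h, fun h2 => absurd (by simpa using h2) h1⟩

/-- The local norms have index at most two. -/
theorem mul_mem_of_not {a κ κ1 : Lˣ} {w : HeightOneSpectrum (𝓞 L)}
    (h : κ ∉ NF a ⊔ LS (w.valuation L)) (h1 : κ1 ∉ NF a ⊔ LS (w.valuation L)) :
    κ * κ1 ∈ NF a ⊔ LS (w.valuation L) := by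
  have ha : a ∉ LS (w.valuation L) := by
    intro ha
    apply h
    rw [NF_sup_of_mem' _ ha]
    exact Subgroup.mem_top _
  rw [Subgroup.mul_mem_iff_of_index_two (local_index_two w a ha)]
  exact ⟨fun h2 => absurd h2 h, fun h2 => absurd h2 h1⟩

/-- Membership of a product with a local norm. -/
theorem mul_not_mem_of_mem {a κ κ1 : Lˣ} {w : HeightOneSpectrum (𝓞 L)}
    (h : κ ∉ NF a ⊔ LS (w.valuation L)) (h1 : κ1 ∈ NF a ⊔ LS (w.valuation L)) :
    κ * κ1 ∉ NF a ⊔ LS (w.valuation L) := fun h2 =>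
  h ((Subgroup.mul_mem_cancel_right _ h1).1 h2)

/-- The quotient of two elements which have the same behaviour at all the bad primes. -/
theorem mul_inv_mem_NV {a : kˣ} {q κ κ1 : Lˣ}
    (h : ∀ v w, Bad a q v w → (κ ∈ NF (up L a) ⊔ LS (w.valuation L) ↔
      κ1 ∈ NF (up L a) ⊔ LS (w.valuation L))) : κ * κ1⁻¹ ∈ NV k a q := by
  intro v w hw
  by_cases h1 : κ1 ∈ NF (up L a) ⊔ LS (w.valuation L)
  · exact mul_mem ((h v w hw).2 h1) (inv_mem h1)
  · exact mul_inv_mem_of_not (fun h2 => h1 ((h v w hw).1 h2)) h1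

end Vale.Agent.P011.D4W.H183
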