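import Vale.Agent.P011.D4Y.H63.Disc
import Vale.Agent.P011.D4Y.H63.RamOdd
import Vale.Agent.P011.D4Y.H64.Even
import Vale.Agent.P011.D4X.H862.Good

/-!
Block D4W: good parameters close to given local ones, without a condition at the primes of even
local degree.
-/

open NumberField IsDedekindDomain Topology Filter

namespace Vale.Agent.P011.D4W.H183

open Vale.Agent.P011.Arith Vale.Agent.P011.MPQ Vale.Agent.P011.D4 Vale.Agent.P011.D4.Oct
  Vale.Agent.P011.E6 Vale.Agent.P011.D4X Vale.Agent.P011.D4Y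

section arith

variable {k L : Type} [Field k] [NumberField k] [Field L] [NumberField L] [Algebra k L]

/-- Good parameters close to given ones at finitely many primes. -/
theorem exists_good_near {n : ℕ} {a b : kˣ} {q : Lˣ} (t : Fin n → kˣ)
    (ht : ∀ i, ¬ IsSquare (t i : k)) {V : Set (HeightOneSpectrum (𝓞 k))} (hV : V.Finite)
    (D0 : HeightOneSpectrum (𝓞 k) → kˣ) (h0 : ∀ v ∈ V, D0 v ∉ LS (v.valuation k))
    (hR : ∀ v ∈ V, ∀ w : HeightOneSpectrum (𝓞 L),
      w.asIdeal.comap (algebraMap (𝓞 k) (𝓞 L)) = v.asIdeal →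
      (Ram (up L a) q w ∨ Ram (up L a) (q * up L b) w) → up L (D0 v) ∉ LS (w.valuation L))
    (θ : kˣ) :
    ∃ D : kˣ, (∀ v ∈ V, v.valuation k ((D : k) - D0 v) < v.valuation k (θ : k)) ∧
      GoodD a b q (D : k) ∧ (∀ τ : k →+* ℝ, τ D < 0 ↔ τ a < 0) ∧
      ∀ i, ∀ r : k, (D : k) ≠ t i * r ^ 2 := by
  classical
  choose below hbelow using fun w : HeightOneSpectrum (𝓞 L) => Sch.exists_below (F := k) w
  obtain ⟨R, hRd⟩ : ∃ R : Set (HeightOneSpectrum (𝓞 L)), R = {w | Ram (up L a) q w} ∪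
    {w | Ram (up L a) (q * up L b) w} := ⟨_, rfl⟩
  have hRf : R.Finite := by
    rw [hRd]
    exact (ram_finite _ _).union (ram_finite _ _)
  obtain ⟨S, hS⟩ : ∃ S : Set (HeightOneSpectrum (𝓞 k)), S = {v | Ram a b v} ∪
    below '' R ∪ V := ⟨_, rfl⟩
  have hSf : S.Finite := by
    rw [hS]
    exact ((ram_finite _ _).union (hRf.image _)).union hV
  have hVS : ∀ v ∈ V, v ∈ S := fun v hv => by
    rw [hS]
    exact Or.inr hv
  choose v1 hv1S hv1 using fun i => exists_nonsplit (t i) (ht i) S hSf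
  -- the local data
  obtain ⟨d0, hd0⟩ : ∃ d0 : Pl k → kˣ, d0 = Sum.elim
    (fun v => if v ∈ V then D0 v else if v ∈ Set.range v1 then 1 else a) (fun _ => a) := ⟨_, rfl⟩
  have hdV : ∀ v ∈ V, d0 (Sum.inl v) = D0 v := fun v hv => by
    rw [hd0, Sum.elim_inl, if_pos hv]
  have hd1 : ∀ i, d0 (Sum.inl (v1 i)) = 1 := fun i => by
    rw [hd0, Sum.elim_inl, if_neg (fun h => hv1S i (hVS _ h)), if_pos ⟨i, rfl⟩]
  have hdS : ∀ v ∈ S, v ∉ V → d0 (Sum.inl v) = a := fun v hv hv' => by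
    rw [hd0, Sum.elim_inl, if_neg hv', if_neg]
    rintro ⟨i, rfl⟩
    exact hv1S i hv
  have hdr : ∀ τ, d0 (Sum.inr τ) = a := fun τ => by rw [hd0, Sum.elim_inr]
  choose δ hδ hδ' using fun p : Pl k => LSp_of_near p (d0 p)
  have hpos : ∀ p : Pl k, 0 < min (min (δ p) (plAbv p (d0 p : k))) (plAbv p (θ : k)) := fun p =>
    lt_min (lt_min (hδ p) ((plAbv p).pos (d0 p).ne_zero)) ((plAbv p).pos θ.ne_zero)
  -- one more place, to have a nonzero element
  obtain ⟨v2, hv2⟩ := exists_notMem (F := k) ∅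
  have hUf : (S ∪ Set.range v1 ∪ {v2}).Finite :=
    (hSf.union (Set.finite_range v1)).union (Set.finite_singleton _)
  obtain ⟨D', hD'⟩ := approx (SP (S ∪ Set.range v1 ∪ {v2})) (SP_finite hUf) (fun p => (d0 p : k))
    (fun p => min (min (δ p) (plAbv p (d0 p : k))) (plAbv p (θ : k))) hpos
  have hne : D' ≠ 0 := by
    rintro rfl
    have h1 := hD' _ (inl_mem_SP.mpr (Or.inr rfl) : (Sum.inl v2 : Pl k) ∈ _)
    rw [zero_sub, AbsoluteValue.map_neg] at h1
    exact absurd (h1.trans_le ((min_le_left _ _).trans (min_le_right _ _))) (lt_irrefl _)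
  obtain ⟨D, hD⟩ : ∃ D : kˣ, (D : k) = D' := ⟨Units.mk0 _ hne, rfl⟩
  have hcl : ∀ p ∈ SP (S ∪ Set.range v1 ∪ {v2}), D * d0 p ∈ LSp p := by
    intro p hp
    apply hδ' p
    rw [hD]
    exact (hD' p hp).trans_le ((min_le_left _ _).trans (min_le_left _ _))
  have hclv : ∀ v ∈ S, D * d0 (Sum.inl v) ∈ LS (v.valuation k) := fun v hv =>
    hcl _ (inl_mem_SP.mpr (Or.inl (Or.inl hv)))
  have hSk : ∀ v ∈ S, Ram a b v → D ∉ LS (v.valuation k) := by
    intro v hv hr h
    have h2 := (Subgroup.mul_mem_cancel_left _ h).1 (hclv v hv)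
    by_cases hvV : v ∈ V
    · rw [hdV v hvV] at h2
      exact h0 v hvV h2
    · rw [hdS v hv hvV] at h2
      exact ram_not_LS hr h2
  have hRL : ∀ w ∈ R, up L D ∉ LS (w.valuation L) := by
    intro w hw h
    have hvS : below w ∈ S := by
      rw [hS]
      exact Or.inl (Or.inr ⟨w, hw, rfl⟩)
    have h8 := LS_map (hbelow w) (hclv _ hvS)
    have e : up L (D * d0 (Sum.inl (below w))) = up L D * up L (d0 (Sum.inl (below w))) :=
      map_mul _ _ _
    change up L (D * d0 (Sum.inl (below w))) ∈ _ at h8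
    rw [e] at h8
    have h9 := (Subgroup.mul_mem_cancel_left _ h).1 h8
    have hw' : Ram (up L a) q w ∨ Ram (up L a) (q * up L b) w := by
      rw [hRd] at hw
      exact hw
    by_cases hvV : below w ∈ V
    · rw [hdV _ hvV] at h9
      exact hR _ hvV w (hbelow w) hw' h9
    · rw [hdS _ hvS hvV] at h9
      rcases hw' with hw' | hw'
      · exact ram_not_LS hw' h9
      · exact ram_not_LS hw' h9
  have hreal : ∀ τ : k →+* ℝ, τ D < 0 ↔ τ a < 0 := by
    intro τ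
    have h1 : 0 < τ ((D * d0 (Sum.inr τ) : kˣ) : k) := hcl _ inr_mem_SP
    rw [hdr, Units.val_mul, map_mul] at h1
    rcases mul_pos_iff.1 h1 with ⟨h2, h3⟩ | ⟨h2, h3⟩
    · exact ⟨fun h => absurd h2 (not_lt.2 h.le), fun h => absurd h3 (not_lt.2 h.le)⟩
    · exact ⟨fun _ => h3, fun _ => h2⟩
  refine ⟨D, ?_, goodD_of (fun v hv => hSk v (by rw [hS]; exact Or.inl (Or.inl hv)) hv)
    (fun w hw => hRL w (by rw [hRd]; exact Or.inl hw))
    (fun w hw => hRL w (by rw [hRd]; exact Or.inr hw)) (fun τ h => (hreal τ).mpr h)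
    (fun τ h => (hreal τ).mp h), hreal, ?_⟩
  · intro v hv
    have h1 := hD' (Sum.inl v) (inl_mem_SP.mpr (Or.inl (Or.inl (hVS v hv))))
    have h2 := h1.trans_le (min_le_right _ _)
    rw [hdV v hv, plAbv_lt] at h2
    rw [hD]
    exact h2
  · intro i r hr
    have h1 : D * d0 (Sum.inl (v1 i)) ∈ LS ((v1 i).valuation k) :=
      hcl _ (inl_mem_SP.mpr (Or.inl (Or.inr ⟨i, rfl⟩)))
    rw [hd1, mul_one] at h1
    have hr0 : r ≠ 0 := by
      rintro rfl
      apply D.ne_zero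
      rw [hr]; ring
    have h3 : D = t i * (Units.mk0 r hr0) ^ 2 := by
      apply Units.ext
      rw [hr, Units.val_mul, Units.val_pow_eq_pow_val, Units.val_mk0]
    rw [h3] at h1
    exact hv1 i ((Subgroup.mul_mem_cancel_right _ (Sq_le_LS _ ⟨_, rfl⟩)).1 h1)

end arith

section model

variable {k L E : Type} [Field k] [NumberField k] [Field L] [NumberField L] [Field E]
  [Algebra k L] [Algebra k E] [Algebra L E]
  [IsScalarTower k L E] [NeZero (2 : E)] {ρ σ ι : E ≃ₐ[k] E} {α : E} {a b c : kˣ} {q : Lˣ}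

omit [IsScalarTower k L E] in
/-- Good parameters close to given ones at finitely many primes. -/
theorem good_near_set (H : HyI ρ σ ι α a b c q) {V : Set (HeightOneSpectrum (𝓞 k))}
    (hV : V.Finite) (D0 : HeightOneSpectrum (𝓞 k) → kˣ)
    (h0 : ∀ v ∈ V, D0 v ∉ LS (v.valuation k))
    (hR : ∀ v ∈ V, ∀ w : HeightOneSpectrum (𝓞 L),
      w.asIdeal.comap (algebraMap (𝓞 k) (𝓞 L)) = v.asIdeal →
      (Ram (up L a) q w ∨ Ram (up L a) (q * up L b) w) → up L (D0 v) ∉ LS (w.valuation L))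
    (θ : kˣ) :
    ∃ D : kˣ, (∀ v ∈ V, v.valuation k ((D : k) - D0 v) < v.valuation k (θ : k)) ∧
      GoodD a b q (D : k) ∧ (∀ τ : k →+* ℝ, τ D < 0 ↔ τ a < 0) ∧
      ∀ e : E, e * e ≠ algebraMap k E (D : k) := by
  obtain ⟨t, ht, hav⟩ := H.exists_avoid
  obtain ⟨D, h1, h2, h3, h4⟩ := exists_good_near (a := a) (b := b) (q := q) t ht hV D0 h0 hR θ
  obtain ⟨hD0, ⟨w0, hw0, hw0'⟩, -⟩ := id h2
  exact ⟨D, h1, h2, h3, hav D (not_sq_of_aniso H.hdiv.aniso hD0 hw0 hw0') h4⟩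

omit [IsScalarTower k L E] in
/-- Good parameters close to a given one at a prime. -/
theorem good_near (H : HyI ρ σ ι α a b c q) (v : HeightOneSpectrum (𝓞 k)) (D0 : kˣ)
    (h0 : D0 ∉ LS (v.valuation k))
    (hR : ∀ w : HeightOneSpectrum (𝓞 L), w.asIdeal.comap (algebraMap (𝓞 k) (𝓞 L)) = v.asIdeal →
      (Ram (up L a) q w ∨ Ram (up L a) (q * up L b) w) → up L D0 ∉ LS (w.valuation L))
    (θ : kˣ) :
    ∃ D : kˣ, v.valuation k ((D : k) - D0) < v.valuation k (θ : k) ∧ GoodD a b q (D : k) ∧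
      ∀ e : E, e * e ≠ algebraMap k E (D : k) := by
  obtain ⟨D, h1, h2, -, h3⟩ := good_near_set H (Set.finite_singleton v) (fun _ => D0)
    (fun v' hv' => by rw [Set.mem_singleton_iff.1 hv']; exact h0)
    (fun v' hv' => by rw [Set.mem_singleton_iff.1 hv']; exact hR) θ
  exact ⟨D, h1 v rfl, h2, h3⟩

end model

end Vale.Agent.P011.D4W.H183
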