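import Vale.Agent.P011.D4.NTS
import Vale.Agent.P011.D4Y.H64.PlA

/-!
Block D4W: quaternions of given norm close to given ones, at finitely many finite and infinite
(real or complex) places.
-/

open NumberField IsDedekindDomain Topology Filter

namespace Vale.Agent.P011.D4W.H183

open Vale.Agent.P011.MPQ Vale.Agent.P011.Arith Vale.Agent.P011.D4 Vale.Agent.P011.D4X
  Vale.Agent.P011.D4Y

/-- The finite and infinite places. -/
abbrev PA (k : Type) [Field k] [NumberField k] := HeightOneSpectrum (𝓞 k) ⊕ InfinitePlace k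

variable {k : Type} [Field k] [NumberField k]

/-- The norm theorem with an element that is not a scalar. -/
theorem exists_nrd_ns {a b : kˣ} (t : kˣ) (h : ∀ φ : k →+* ℝ, φ a < 0 → φ b < 0 → 0 < φ t) :
    ∃ q : Qt a b, nrd q = t ∧ (2 * q.re) ^ 2 - 4 * (t : k) ≠ 0 := by
  obtain ⟨q, hq⟩ := exists_nrd t h
  by_cases h1 : (2 * q.re) ^ 2 - 4 * (t : k) = 0
  · obtain ⟨n, hn0, hn⟩ : ∃ n : k, n ≠ 0 ∧ n ^ 2 - a ≠ 0 := by
      by_cases h2 : (1 : k) ^ 2 - a = 0
      · refine ⟨2, two_ne_zero, fun h3 => ?_⟩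
        have h4 : (3 : k) = 0 := by linear_combination h3 - h2
        exact three_ne_zero h4
      · exact ⟨1, one_ne_zero, h2⟩
    have ht : (t : k) = q.re ^ 2 := by linear_combination -(1 / 4 : k) * h1
    have hre : q.re ≠ 0 := fun h0 => t.ne_zero (by rw [ht, h0]; ring)
    refine ⟨⟨q.re * (n ^ 2 + a) / (n ^ 2 - a), 2 * q.re * n / (n ^ 2 - a), 0, 0⟩, ?_, ?_⟩
    · simp only [nrd]
      rw [ht]
      field_simp
      ring
    · change (2 * (q.re * (n ^ 2 + a) / (n ^ 2 - a))) ^ 2 - 4 * (t : k) ≠ 0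
      have e1 : (2 * (q.re * (n ^ 2 + a) / (n ^ 2 - a))) ^ 2 - 4 * (t : k) =
          16 * q.re ^ 2 * n ^ 2 * a / (n ^ 2 - a) ^ 2 := by
        rw [ht]
        field_simp
        ring
      rw [e1]
      exact div_ne_zero (mul_ne_zero (mul_ne_zero (mul_ne_zero (by norm_num) (pow_ne_zero 2 hre))
        (pow_ne_zero 2 hn0)) a.ne_zero) (pow_ne_zero 2 hn)
  · exact ⟨q, hq, h1⟩

/-- The norm theorem with closeness. -/
theorem nt_absA {S : Set (PA k)} (hS : S.Finite) {ε : ℝ}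
    (hε : 0 < ε) : ∃ δ : ℝ, 0 < δ ∧ ∀ (a b : kˣ),
    ∀ t : k, (∀ p ∈ S, paAbv p (t - 1) < δ) → (∀ φ : k →+* ℝ, φ a < 0 → φ b < 0 → 0 < φ t) →
    ∀ ε' : ℝ, 0 < ε' → ∃ q : Qt a b, nrd q = t ∧ ∀ p ∈ S, paAbv p (q.re - 1) < ε ∧
      paAbv p q.imI < ε' ∧ paAbv p q.imJ < ε' ∧ paAbv p q.imK < ε' := by
  have hfin : Finite S := hS
  obtain ⟨ε₁, hε₁, hε₁1, hε₁2⟩ : ∃ ε₁ : ℝ, 0 < ε₁ ∧ ε₁ ≤ ε / 4 ∧ ε₁ ≤ 1 / 4 :=
    ⟨min (ε / 4) (1 / 4), by positivity, min_le_left _ _, min_le_right _ _⟩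
  choose δ hδ hroot using fun p : PA k => exists_root (paAbv p) hε₁
  obtain ⟨δ₀, hδ₀, hδ₀1⟩ : ∃ δ₀ : ℝ, 0 < δ₀ ∧ ∀ p ∈ S, δ₀ ≤ δ p := by
    by_cases hne : Nonempty S
    · obtain ⟨p0, hp0⟩ := Finite.exists_min (fun p : S => δ p)
      exact ⟨δ p0, hδ _, fun p hp => hp0 ⟨p, hp⟩⟩
    · exact ⟨1, one_pos, fun p hp => absurd ⟨⟨p, hp⟩⟩ hne⟩
  refine ⟨min δ₀ 1, by positivity, fun a b t htS hpos ε' hε' => ?_⟩
  by_cases ht0 : t = 0
  · refine ⟨0, by rw [ht0]; simp [nrd], fun p hp => ?_⟩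
    have h1 := (htS p hp).trans_le (min_le_right _ _)
    rw [ht0, zero_sub, (paAbv p).map_neg, map_one] at h1
    exact absurd h1 (lt_irrefl _)
  obtain ⟨q, hq, hq4⟩ := exists_nrd_ns (Units.mk0 t ht0) hpos
  rw [Units.val_mk0] at hq hq4
  obtain ⟨x, y, z, w⟩ := q
  simp only [nrd] at hq hq4
  obtain ⟨ε₂, hε₂, hε₂1, hε₂2⟩ : ∃ ε₂ : ℝ, 0 < ε₂ ∧ ε₂ ≤ ε / 4 ∧ ε₂ ≤ ε' :=
    ⟨min (ε / 4) ε', by positivity, min_le_left _ _, min_le_right _ _⟩
  let M : PA k → ℝ := fun p => paAbv p x + 2 + paAbv p y + paAbv p z + paAbv p w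
  have hM : ∀ p, 0 < M p := fun p => by
    have := (paAbv p).nonneg x
    have := (paAbv p).nonneg y
    have := (paAbv p).nonneg z
    have := (paAbv p).nonneg w
    change 0 < paAbv p x + 2 + paAbv p y + paAbv p z + paAbv p w
    linarith
  choose η hη hsmall using fun p : PA k =>
    exists_small (paAbv p) t (2 * x) ht0 hq4 (hM p) hε₂
  have hu : ∀ p : PA k, ∃ u : k, p ∈ S → paAbv p (u - 1) < ε₁ ∧ paAbv p (u ^ 2 - t) < η p / 2 := by
    intro p
    by_cases hp : p ∈ S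
    · obtain ⟨u, hu⟩ := hroot p t ((htS p hp).trans_le ((min_le_left _ _).trans (hδ₀1 p hp)))
        (η p / 2) (by have := hη p; positivity)
      exact ⟨u, fun _ => hu⟩
    · exact ⟨0, fun h => absurd h hp⟩
  choose u hu using hu
  obtain ⟨f, hf⟩ := approxA S hS u (fun p => min ε₁ (η p / 8)) (fun p => by
    have := hη p
    positivity)
  obtain ⟨lam, hlam⟩ : ∃ lam : k, lam = (t - f ^ 2) / (t - f * (2 * x) + f ^ 2) := ⟨_, rfl⟩
  have hfp : ∀ p ∈ S, paAbv p (f - 1) < 2 * ε₁ ∧ t - f * (2 * x) + f ^ 2 ≠ 0 ∧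
      paAbv p lam * M p < ε₂ := by
    intro p hp
    obtain ⟨h1, h2⟩ := lt_min_iff.mp (hf p hp)
    obtain ⟨h3, h4⟩ := hu p hp
    have h5 : paAbv p (f - 1) < 2 * ε₁ := by
      have h6 := (paAbv p).add_le (f - u p) (u p - 1)
      rw [sub_add_sub_cancel] at h6
      linarith
    have h7 : paAbv p f ≤ 2 := by
      have h6 := (paAbv p).add_le (f - 1) 1
      rw [sub_add_cancel, map_one] at h6
      linarith
    have h8 : paAbv p (u p) ≤ 2 := by
      have h6 := (paAbv p).add_le (u p - 1) 1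
      rw [sub_add_cancel, map_one] at h6
      linarith
    have h9 : paAbv p (f ^ 2 - t) < η p := by
      have e1 : f ^ 2 - t = (f - u p) * (f + u p) + (u p ^ 2 - t) := by ring
      have h10 := (paAbv p).add_le ((f - u p) * (f + u p)) (u p ^ 2 - t)
      rw [← e1, map_mul] at h10
      have h11 := (paAbv p).add_le f (u p)
      have h12 := (paAbv p).nonneg (f - u p)
      nlinarith
    obtain ⟨h10, h11⟩ := hsmall p f h7 h9
    exact ⟨h5, h10, by rw [hlam]; exact h11⟩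
  by_cases hne : S.Nonempty
  · obtain ⟨p0, hp0⟩ := hne
    have hN : t - f * (2 * x) + f ^ 2 ≠ 0 := (hfp p0 hp0).2.1
    have hl : lam * (t - f * (2 * x) + f ^ 2) = t - f ^ 2 := by
      rw [hlam]
      exact div_mul_cancel₀ _ hN
    refine ⟨⟨f - lam * (x - f), -(lam * y), -(lam * z), -(lam * w)⟩, ?_, fun p hp => ?_⟩
    · simp only [nrd]
      linear_combination lam ^ 2 * hq + (lam + 1) * hl
    · obtain ⟨h1, -, h3⟩ := hfp p hp
      change paAbv p (f - lam * (x - f) - 1) < ε ∧ paAbv p (-(lam * y)) < ε' ∧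
        paAbv p (-(lam * z)) < ε' ∧ paAbv p (-(lam * w)) < ε'
      have hx := (paAbv p).nonneg x
      have hy := (paAbv p).nonneg y
      have hz := (paAbv p).nonneg z
      have hw := (paAbv p).nonneg w
      have hl0 := (paAbv p).nonneg lam
      have h3' : paAbv p lam * (paAbv p x + 2 + paAbv p y + paAbv p z + paAbv p w) < ε₂ := h3
      have h7 : paAbv p f ≤ 2 := by
        have h6 := (paAbv p).add_le (f - 1) 1
        rw [sub_add_cancel, map_one] at h6
        linarith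
      refine ⟨?_, ?_, ?_, ?_⟩
      · have e1 : f - lam * (x - f) - 1 = (f - 1) + -(lam * (x - f)) := by ring
        have h4 := (paAbv p).add_le (f - 1) (-(lam * (x - f)))
        rw [← e1, (paAbv p).map_neg, map_mul] at h4
        have h5 : paAbv p (x - f) ≤ paAbv p x + 2 := by
          have h6 := (paAbv p).add_le x (-f)
          rw [← sub_eq_add_neg, (paAbv p).map_neg] at h6
          linarith
        nlinarith [mul_nonneg hl0 hy, mul_nonneg hl0 hz, mul_nonneg hl0 hw,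
          mul_le_mul_of_nonneg_left h5 hl0]
      · rw [(paAbv p).map_neg, map_mul]
        nlinarith [mul_nonneg hl0 hx, mul_nonneg hl0 hz, mul_nonneg hl0 hw]
      · rw [(paAbv p).map_neg, map_mul]
        nlinarith [mul_nonneg hl0 hx, mul_nonneg hl0 hy, mul_nonneg hl0 hw]
      · rw [(paAbv p).map_neg, map_mul]
        nlinarith [mul_nonneg hl0 hx, mul_nonneg hl0 hy, mul_nonneg hl0 hz]
  · exact ⟨⟨x, y, z, w⟩, hq, fun p hp => absurd ⟨p, hp⟩ hne⟩


/-- A common positive lower bound. -/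
theorem exists_lb {X : Type} {S : Set X} (hS : S.Finite) {δ : X → ℝ} (hδ : ∀ p, 0 < δ p) :
    ∃ d : ℝ, 0 < d ∧ ∀ p ∈ S, d ≤ δ p := by
  have hfin : Finite S := hS
  by_cases hne : Nonempty S
  · obtain ⟨p0, hp0⟩ := Finite.exists_min (fun p : S => δ p)
    exact ⟨δ p0, hδ _, fun p hp => hp0 ⟨p, hp⟩⟩
  · exact ⟨1, one_pos, fun p hp => absurd ⟨⟨p, hp⟩⟩ hne⟩

/-- The norm of a quaternion is positive at the places where the algebra is definite. -/
theorem nrd_pos_of {a b : kˣ} {φ : k →+* ℝ} (ha : φ a < 0) (hb : φ b < 0) {q : Qt a b}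
    (hq : nrd q ≠ 0) : 0 < φ (nrd q) := by
  refine lt_of_le_of_ne ?_ (Ne.symm ((map_ne_zero φ).2 hq))
  simp only [nrd, map_sub, map_add, map_mul, map_pow]
  nlinarith [sq_nonneg (φ q.re), mul_nonneg (neg_nonneg.2 ha.le) (sq_nonneg (φ q.imI)),
    mul_nonneg (neg_nonneg.2 hb.le) (sq_nonneg (φ q.imJ)),
    mul_nonneg (mul_nonneg (neg_nonneg.2 ha.le) (neg_nonneg.2 hb.le)) (sq_nonneg (φ q.imK))]

/-- Quaternions of given norm close to given ones. -/
theorem nrd_near_pos {S : Set (PA k)} (hS : S.Finite) (hne : S.Nonempty) (a b : kˣ)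
    (g : PA k → Qt a b) (hg : ∀ p ∈ S, nrd (g p) ≠ 0) {ε : ℝ} (hε : 0 < ε) :
    ∃ δ : ℝ, 0 < δ ∧ ∀ t : k, (∀ p ∈ S, paAbv p (t - nrd (g p)) < δ) →
      (∀ φ : k →+* ℝ, φ a < 0 → φ b < 0 → 0 < φ t) →
      ∃ q : Qt a b, nrd q = t ∧ ∀ p ∈ S, paAbv p (q.re - (g p).re) < ε ∧
        paAbv p (q.imI - (g p).imI) < ε ∧ paAbv p (q.imJ - (g p).imJ) < ε ∧
        paAbv p (q.imK - (g p).imK) < ε := by
  classical
  -- continuity of the product
  have hmul : ∀ p : PA k, ∃ δ : ℝ, 0 < δ ∧ ∀ G x : Qt a b,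
      paAbv p (G.re - (g p).re) < δ → paAbv p (G.imI - (g p).imI) < δ →
      paAbv p (G.imJ - (g p).imJ) < δ → paAbv p (G.imK - (g p).imK) < δ →
      paAbv p (x.re - 1) < δ → paAbv p x.imI < δ → paAbv p x.imJ < δ → paAbv p x.imK < δ →
      paAbv p ((G * x).re - (g p).re) < ε ∧ paAbv p ((G * x).imI - (g p).imI) < ε ∧
      paAbv p ((G * x).imJ - (g p).imJ) < ε ∧ paAbv p ((G * x).imK - (g p).imK) < ε := by
    intro p
    obtain ⟨z, hz⟩ : ∃ z : Fin 8 → k,
        z = ![(g p).re, (g p).imI, (g p).imJ, (g p).imK, 1, 0, 0, 0] := ⟨_, rfl⟩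
    have c (i : Fin 8) : CA (paAbv p) z fun u => u i := CA.coord i
    have d (x : k) : CA (paAbv p) z fun _ => x := CA.const x
    obtain ⟨d0, hd0, k0⟩ := ((((c 0).mul (c 4)).add ((d (a : k)).mul ((c 1).mul (c 5)))).add
      (((d (b : k)).mul ((c 2).mul (c 6))).sub
        ((d ((a : k) * b)).mul ((c 3).mul (c 7))))) ε hε
    obtain ⟨d1, hd1, k1⟩ := ((((c 0).mul (c 5)).add ((c 1).mul (c 4))).add
      (((d (b : k)).mul ((c 3).mul (c 6))).sub ((d (b : k)).mul ((c 2).mul (c 7))))) ε hε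
    obtain ⟨d2, hd2, k2⟩ := ((((c 0).mul (c 6)).add ((c 2).mul (c 4))).add
      (((d (a : k)).mul ((c 1).mul (c 7))).sub ((d (a : k)).mul ((c 3).mul (c 5))))) ε hε
    obtain ⟨d3, hd3, k3⟩ := ((((c 0).mul (c 7)).add ((c 1).mul (c 6))).add
      (((c 3).mul (c 4)).sub ((c 2).mul (c 5)))) ε hε
    refine ⟨min (min d0 d1) (min d2 d3), by positivity, fun G x h0 h1 h2 h3 h4 h5 h6 h7 => ?_⟩
    have m : ∀ i, paAbv p ((![G.re, G.imI, G.imJ, G.imK, x.re, x.imI, x.imJ, x.imK] :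
        Fin 8 → k) i - z i) < min (min d0 d1) (min d2 d3) := by
      intro i
      rw [hz]
      fin_cases i
      · exact h0
      · exact h1
      · exact h2
      · exact h3
      · exact h4
      · change paAbv p (x.imI - 0) < _
        rw [sub_zero]
        exact h5
      · change paAbv p (x.imJ - 0) < _
        rw [sub_zero]
        exact h6
      · change paAbv p (x.imK - 0) < _
        rw [sub_zero]
        exact h7
    have m0 := k0 _ fun i => (m i).trans_le ((min_le_left _ _).trans (min_le_left _ _))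
    have m1 := k1 _ fun i => (m i).trans_le ((min_le_left _ _).trans (min_le_right _ _))
    have m2 := k2 _ fun i => (m i).trans_le ((min_le_right _ _).trans (min_le_left _ _))
    have m3 := k3 _ fun i => (m i).trans_le ((min_le_right _ _).trans (min_le_right _ _))
    rw [hz] at m0 m1 m2 m3
    have e0 : (G * x).re - (g p).re = (G.re * x.re + a * (G.imI * x.imI) +
        (b * (G.imJ * x.imJ) - a * b * (G.imK * x.imK))) - ((g p).re * 1 + a * ((g p).imI * 0) +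
        (b * ((g p).imJ * 0) - a * b * ((g p).imK * 0))) := by
      rw [QuaternionAlgebra.re_mul]
      ring
    have e1 : (G * x).imI - (g p).imI = (G.re * x.imI + G.imI * x.re +
        (b * (G.imK * x.imJ) - b * (G.imJ * x.imK))) - ((g p).re * 0 + (g p).imI * 1 +
        (b * ((g p).imK * 0) - b * ((g p).imJ * 0))) := by
      rw [QuaternionAlgebra.imI_mul]
      ring
    have e2 : (G * x).imJ - (g p).imJ = (G.re * x.imJ + G.imJ * x.re +
        (a * (G.imI * x.imK) - a * (G.imK * x.imI))) - ((g p).re * 0 + (g p).imJ * 1 +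
        (a * ((g p).imI * 0) - a * ((g p).imK * 0))) := by
      rw [QuaternionAlgebra.imJ_mul]
      ring
    have e3 : (G * x).imK - (g p).imK = (G.re * x.imK + G.imI * x.imJ +
        (G.imK * x.re - G.imJ * x.imI)) - ((g p).re * 0 + (g p).imI * 0 +
        ((g p).imK * 1 - (g p).imJ * 0)) := by
      rw [QuaternionAlgebra.imK_mul]
      ring
    rw [e0, e1, e2, e3]
    exact ⟨m0, m1, m2, m3⟩
  choose δ1 hδ1 hmul using hmul
  obtain ⟨ε1, hε1, hle1⟩ := exists_lb hS hδ1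
  obtain ⟨δ2, hδ2, hnt⟩ := nt_absA hS hε1
  -- continuity of the norm
  have hnrm : ∀ p : PA k, ∃ δ : ℝ, 0 < δ ∧ (p ∈ S → ∀ G : Qt a b,
      paAbv p (G.re - (g p).re) < δ → paAbv p (G.imI - (g p).imI) < δ →
      paAbv p (G.imJ - (g p).imJ) < δ → paAbv p (G.imK - (g p).imK) < δ →
      paAbv p (nrd G - nrd (g p)) < min (paAbv p (nrd (g p)) / 2)
        (δ2 * paAbv p (nrd (g p)) / 4)) := by
    intro p
    by_cases hp : p ∈ S
    swap
    · exact ⟨1, one_pos, fun h => absurd h hp⟩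
    obtain ⟨z, hz⟩ : ∃ z : Fin 4 → k, z = ![(g p).re, (g p).imI, (g p).imJ, (g p).imK] :=
      ⟨_, rfl⟩
    have c (i : Fin 4) : CA (paAbv p) z fun u => u i := CA.coord i
    have d (x : k) : CA (paAbv p) z fun _ => x := CA.const x
    have hpos : 0 < paAbv p (nrd (g p)) := (paAbv p).pos (hg p hp)
    obtain ⟨d0, hd0, k0⟩ := (((((c 0).pow 2).sub ((d (a : k)).mul ((c 1).pow 2))).sub
      ((d (b : k)).mul ((c 2).pow 2))).add ((d ((a : k) * b)).mul ((c 3).pow 2)))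
      (min (paAbv p (nrd (g p)) / 2) (δ2 * paAbv p (nrd (g p)) / 4)) (by positivity)
    refine ⟨d0, hd0, fun _ G h0 h1 h2 h3 => ?_⟩
    have m := k0 ![G.re, G.imI, G.imJ, G.imK] (by
      intro i
      rw [hz]
      fin_cases i
      · exact h0
      · exact h1
      · exact h2
      · exact h3)
    rw [hz] at m
    exact m
  choose δ3 hδ3 hnrm using hnrm
  -- the approximation
  have hη : ∀ p, 0 < min ε1 (δ3 p) := fun p => lt_min hε1 (hδ3 p)
  obtain ⟨g0, hg0⟩ := approxA S hS (fun p => (g p).re) _ hη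
  obtain ⟨g1, hg1⟩ := approxA S hS (fun p => (g p).imI) _ hη
  obtain ⟨g2, hg2⟩ := approxA S hS (fun p => (g p).imJ) _ hη
  obtain ⟨g3, hg3⟩ := approxA S hS (fun p => (g p).imK) _ hη
  obtain ⟨G, hG⟩ : ∃ G : Qt a b, G = ⟨g0, g1, g2, g3⟩ := ⟨_, rfl⟩
  have hGn : ∀ p ∈ S, paAbv p (nrd G - nrd (g p)) < min (paAbv p (nrd (g p)) / 2)
      (δ2 * paAbv p (nrd (g p)) / 4) := by
    intro p hp
    refine hnrm p hp G ?_ ?_ ?_ ?_
    · rw [hG]; exact (hg0 p hp).trans_le (min_le_right _ _)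
    · rw [hG]; exact (hg1 p hp).trans_le (min_le_right _ _)
    · rw [hG]; exact (hg2 p hp).trans_le (min_le_right _ _)
    · rw [hG]; exact (hg3 p hp).trans_le (min_le_right _ _)
  have hGl : ∀ p ∈ S, paAbv p (nrd (g p)) / 2 < paAbv p (nrd G) := by
    intro p hp
    have h1 := (hGn p hp).trans_le (min_le_left _ _)
    have h2 := (paAbv p).add_le (nrd G) (-(nrd G - nrd (g p)))
    have e1 : nrd G + -(nrd G - nrd (g p)) = nrd (g p) := by ring
    rw [e1, (paAbv p).map_neg] at h2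
    linarith
  have hG0 : nrd G ≠ 0 := by
    obtain ⟨p, hp⟩ := hne
    have h1 := hGl p hp
    have h2 := (paAbv p).nonneg (nrd (g p))
    intro h0
    rw [h0, map_zero] at h1
    linarith
  have hδ4 : ∀ p : PA k, 0 < if p ∈ S then δ2 * paAbv p (nrd (g p)) / 4 else 1 := by
    intro p
    split_ifs with hp
    · have : 0 < paAbv p (nrd (g p)) := (paAbv p).pos (hg p hp)
      positivity
    · exact one_pos
  obtain ⟨δ, hδ, hδle⟩ := exists_lb hS hδ4
  refine ⟨δ, hδ, fun t ht hpos => ?_⟩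
  have ha1 : ∀ p ∈ S, paAbv p (t / nrd G - 1) < δ2 := by
    intro p hp
    have h1 := ht p hp
    have h2 := hδle p hp
    rw [if_pos hp] at h2
    have h3 := (hGn p hp).trans_le (min_le_right _ _)
    have h4 := hGl p hp
    have h5 : 0 < paAbv p (nrd G) := (paAbv p).pos hG0
    have e1 : t / nrd G - 1 = (t - nrd G) / nrd G := by
      field_simp
    rw [e1, map_div₀, div_lt_iff₀ h5]
    have h6 := (paAbv p).add_le (t - nrd (g p)) (-(nrd G - nrd (g p)))
    have e2 : t - nrd (g p) + -(nrd G - nrd (g p)) = t - nrd G := by ring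
    rw [e2, (paAbv p).map_neg] at h6
    nlinarith
  have ha2 : ∀ φ : k →+* ℝ, φ a < 0 → φ b < 0 → 0 < φ (t / nrd G) := by
    intro φ ha hb
    rw [map_div₀]
    exact div_pos (hpos φ ha hb) (nrd_pos_of ha hb hG0)
  obtain ⟨q, hq, hqS⟩ := hnt a b (t / nrd G) ha1 ha2 ε1 hε1
  refine ⟨G * q, ?_, fun p hp => ?_⟩
  · rw [nrd_mul, hq, mul_div_cancel₀ _ hG0]
  · obtain ⟨q0, q1, q2, q3⟩ := hqS p hp
    have hl := hle1 p hp
    refine hmul p G q ?_ ?_ ?_ ?_ (q0.trans_le hl) (q1.trans_le hl) (q2.trans_le hl)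
      (q3.trans_le hl)
    · rw [hG]; exact ((hg0 p hp).trans_le (min_le_left _ _)).trans_le hl
    · rw [hG]; exact ((hg1 p hp).trans_le (min_le_left _ _)).trans_le hl
    · rw [hG]; exact ((hg2 p hp).trans_le (min_le_left _ _)).trans_le hl
    · rw [hG]; exact ((hg3 p hp).trans_le (min_le_left _ _)).trans_le hl

/-- Quaternions of given norm close to given ones, at a finite set of finite places and at all
infinite places. -/
theorem nrd_near_of {S : Set (HeightOneSpectrum (𝓞 k))} (hS : S.Finite) (a b : kˣ)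
    (g : PA k → Qt a b) (hg : ∀ p ∈ TS S, nrd (g p) ≠ 0) {ε : ℝ} (hε : 0 < ε) :
    ∃ δ : ℝ, 0 < δ ∧ ∀ t : k, (∀ p ∈ TS S, paAbv p (t - nrd (g p)) < δ) →
      ∃ q : Qt a b, nrd q = t ∧ ∀ p ∈ TS S, paAbv p (q.re - (g p).re) < ε ∧
        paAbv p (q.imI - (g p).imI) < ε ∧ paAbv p (q.imJ - (g p).imJ) < ε ∧
        paAbv p (q.imK - (g p).imK) < ε := by
  classical
  obtain ⟨u⟩ : Nonempty (InfinitePlace k) := inferInstance
  obtain ⟨δ, hδ, h⟩ := nrd_near_pos (TS_finite hS) ⟨Sum.inr u, inr_mem_TS⟩ a b g hg hε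
  have hδ' : ∀ p : PA k, 0 < if p ∈ TS S then paAbv p (nrd (g p)) else 1 := by
    intro p
    split_ifs with hp
    · exact (paAbv p).pos (hg p hp)
    · exact one_pos
  obtain ⟨δ', hδ', hle⟩ := exists_lb (TS_finite hS) hδ'
  refine ⟨min δ δ', lt_min hδ hδ', fun t ht => h t (fun p hp =>
    (ht p hp).trans_le (min_le_left _ _)) fun φ ha hb => ?_⟩
  obtain ⟨p, hp⟩ : ∃ p : PA k, p = Sum.inr (InfinitePlace.mk (Complex.ofRealHom.comp φ)) :=
    ⟨_, rfl⟩
  have hpS : p ∈ TS S := by rw [hp]; exact inr_mem_TS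
  have h1 := (ht p hpS).trans_le (min_le_right _ _)
  have h2 := hle p hpS
  rw [if_pos hpS] at h2
  have h3 := h1.trans_le h2
  have habs : ∀ x : k, paAbv p x = |φ x| := by
    intro x
    rw [hp]
    change InfinitePlace.mk (Complex.ofRealHom.comp φ) x = _
    rw [InfinitePlace.apply]
    exact Complex.norm_real _
  rw [habs, habs, map_sub, abs_of_pos (nrd_pos_of ha hb (hg p hpS)), abs_lt] at h3
  linarith [h3.1]

/-- Quaternions of norm close to one. -/
theorem nrd_near {S : Set (HeightOneSpectrum (𝓞 k))} (hS : S.Finite) (a b : kˣ) {ε : ℝ}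
    (hε : 0 < ε) : ∃ δ : ℝ, 0 < δ ∧ ∀ t : k, (∀ p ∈ TS S, paAbv p (t - 1) < δ) →
      ∃ q : Qt a b, nrd q = t ∧ ∀ p ∈ TS S, paAbv p (q.re - 1) < ε ∧
        paAbv p q.imI < ε ∧ paAbv p q.imJ < ε ∧ paAbv p q.imK < ε := by
  have h1 : nrd (1 : Qt a b) = 1 := by simp [nrd]
  obtain ⟨δ, hδ, h⟩ := nrd_near_of hS a b (fun _ => 1) (fun _ _ => by
    rw [h1]; exact one_ne_zero) hε
  refine ⟨δ, hδ, fun t ht => ?_⟩
  obtain ⟨q, hq, hq'⟩ := h t (fun p hp => by rw [h1]; exact ht p hp)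
  refine ⟨q, hq, fun p hp => ?_⟩
  obtain ⟨q0, q1, q2, q3⟩ := hq' p hp
  rw [QuaternionAlgebra.imI_one, sub_zero] at q1
  rw [QuaternionAlgebra.imJ_one, sub_zero] at q2
  rw [QuaternionAlgebra.imK_one, sub_zero] at q3
  rw [QuaternionAlgebra.re_one] at q0
  exact ⟨q0, q1, q2, q3⟩

/-- Quaternions close to given ones, with a norm in a given square class. -/
theorem nrd_class_near {S : Set (PA k)} (hS : S.Finite) (hne : S.Nonempty) (a b : kˣ) (n : kˣ)
    (hn : ∀ φ : k →+* ℝ, φ a < 0 → φ b < 0 → 0 < φ n)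
    (t : PA k → Qt a b) (ht : ∀ p ∈ S, nrd (t p) ≠ 0)
    (hcl : ∀ p ∈ S, ∀ η : ℝ, 0 < η → ∃ r : k, paAbv p (n * r ^ 2 - nrd (t p)) < η)
    {ε : ℝ} (hε : 0 < ε) :
    ∃ (x : Qt a b) (r : kˣ), nrd x = n * r ^ 2 ∧ ∀ p ∈ S, paAbv p (x.re - (t p).re) < ε ∧
        paAbv p (x.imI - (t p).imI) < ε ∧ paAbv p (x.imJ - (t p).imJ) < ε ∧
        paAbv p (x.imK - (t p).imK) < ε := by
  classical
  obtain ⟨δ, hδ, h⟩ := nrd_near_pos hS hne a b t ht hε
  -- the local roots
  have hr : ∀ p : PA k, ∃ (r : k) (η : ℝ), 0 < η ∧ (p ∈ S → ∀ s : k, paAbv p (s - r) < η →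
      paAbv p (n * s ^ 2 - nrd (t p)) < min δ (paAbv p (nrd (t p)))) := by
    intro p
    by_cases hp : p ∈ S
    swap
    · exact ⟨0, 1, one_pos, fun h => absurd h hp⟩
    have h0 : 0 < min δ (paAbv p (nrd (t p))) := lt_min hδ ((paAbv p).pos (ht p hp))
    obtain ⟨r, hr⟩ := hcl p hp _ (half_pos h0)
    obtain ⟨z, hz⟩ : ∃ z : Fin 1 → k, z = ![r] := ⟨_, rfl⟩
    have c (i : Fin 1) : CA (paAbv p) z fun u => u i := CA.coord i
    have d (x : k) : CA (paAbv p) z fun _ => x := CA.const x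
    obtain ⟨η, hη, h1⟩ := ((d (n : k)).mul ((c 0).pow 2)) _ (half_pos h0)
    refine ⟨r, η, hη, fun _ s hs => ?_⟩
    have h2 := h1 ![s] (by
      intro i
      rw [hz]
      fin_cases i
      exact hs)
    rw [hz] at h2
    change paAbv p (n * s ^ 2 - n * r ^ 2) < _ at h2
    have h3 := (paAbv p).add_le (n * s ^ 2 - n * r ^ 2) (n * r ^ 2 - nrd (t p))
    rw [sub_add_sub_cancel] at h3
    linarith
  choose r0 η hη hr using hr
  obtain ⟨r, hr1⟩ := approxA S hS r0 η hη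
  have hcl' : ∀ p ∈ S, paAbv p (n * r ^ 2 - nrd (t p)) < min δ (paAbv p (nrd (t p))) :=
    fun p hp => hr p hp r (hr1 p hp)
  have hr0 : r ≠ 0 := by
    rintro rfl
    obtain ⟨p, hp⟩ := hne
    have h1 := (hcl' p hp).trans_le (min_le_right _ _)
    have e : (n : k) * 0 ^ 2 - nrd (t p) = -nrd (t p) := by ring
    rw [e, (paAbv p).map_neg] at h1
    exact lt_irrefl _ h1
  obtain ⟨x, hx, hx'⟩ := h (n * r ^ 2) (fun p hp => (hcl' p hp).trans_le (min_le_left _ _))
    (fun φ ha hb => by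
      rw [map_mul, map_pow]
      exact mul_pos (hn φ ha hb) (lt_of_le_of_ne (sq_nonneg _)
        (pow_ne_zero 2 ((map_ne_zero φ).2 hr0)).symm))
  exact ⟨x, Units.mk0 r hr0, hx, hx'⟩

/-- The local square classes. -/
theorem cl_of_LSp {p : Pl k} {n u : kˣ} (h : u * n ∈ LSp p) {η : ℝ} (hη : 0 < η) :
    ∃ r : k, plAbv p (n * r ^ 2 - u) < η := by
  have hn : 0 < plAbv p (n : k) := (plAbv p).pos n.ne_zero
  obtain ⟨r, hr⟩ := exists_sq_near p h (ε := η * plAbv p (n : k)) (mul_pos hη hn)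
  refine ⟨r / n, ?_⟩
  have e : (n : k) * (r / n) ^ 2 - u = (r ^ 2 - ((u * n : kˣ) : k)) / n := by
    have := n.ne_zero
    rw [Units.val_mul]
    field_simp
  rw [e, map_div₀, div_lt_iff₀ hn]
  exact hr

/-- Quaternions close to given ones, with a norm in a given square class, in terms of the finite
and the real places. -/
theorem nrd_class_near' {S : Set (Pl k)} (hS : S.Finite) (hne : S.Nonempty) (a b : kˣ) (n : kˣ)
    (hn : ∀ φ : k →+* ℝ, φ a < 0 → φ b < 0 → 0 < φ n)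
    (t : Pl k → Qt a b) (ht : ∀ p ∈ S, nrd (t p) ≠ 0)
    (hcl : ∀ p ∈ S, ∀ h : nrd (t p) ≠ 0, Units.mk0 _ h * n ∈ LSp p)
    {ε : ℝ} (hε : 0 < ε) :
    ∃ (x : Qt a b) (r : kˣ), nrd x = n * r ^ 2 ∧ ∀ p ∈ S, plAbv p (x.re - (t p).re) < ε ∧
        plAbv p (x.imI - (t p).imI) < ε ∧ plAbv p (x.imJ - (t p).imJ) < ε ∧
        plAbv p (x.imK - (t p).imK) < ε := by
  classical
  -- the map to the places
  obtain ⟨f, hf⟩ : ∃ f : Pl k → PA k, f = Sum.elim Sum.inl fun φ =>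
    Sum.inr (InfinitePlace.mk (Complex.ofRealHom.comp φ)) := ⟨_, rfl⟩
  have hfi : Function.Injective f := by
    intro p q h
    rw [hf] at h
    rcases p with p | p <;> rcases q with q | q
    · simpa using h
    · simp at h
    · simp at h
    · simp only [Sum.elim_inr, Sum.inr.injEq] at h
      rw [real_place_injective h]
  have habs : ∀ (p : Pl k) (x : k), paAbv (f p) x = plAbv p x := by
    intro p x
    rw [hf]
    rcases p with p | p
    · rfl
    · change InfinitePlace.mk (Complex.ofRealHom.comp p) x = |p x|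
      rw [InfinitePlace.apply]
      exact Complex.norm_real _
  have hne' : Nonempty (Pl k) := ⟨hne.some⟩
  obtain ⟨t', ht'⟩ : ∃ t' : PA k → Qt a b, ∀ p, t' (f p) = t p :=
    ⟨fun q => t (Function.invFun f q), fun p => by
      change t (Function.invFun f (f p)) = t p
      rw [Function.leftInverse_invFun hfi]⟩
  obtain ⟨x, r, h1, h2⟩ := nrd_class_near (hS.image f) (hne.image f) a b n hn t' (by
      rintro _ ⟨p, hp, rfl⟩
      rw [ht']
      exact ht p hp) (by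
      rintro _ ⟨p, hp, rfl⟩ η hη
      obtain ⟨r, hr⟩ := cl_of_LSp (hcl p hp (ht p hp)) hη
      refine ⟨r, ?_⟩
      rw [habs, ht']
      exact hr) hε
  refine ⟨x, r, h1, fun p hp => ?_⟩
  obtain ⟨g0, g1, g2, g3⟩ := h2 (f p) ⟨p, hp, rfl⟩
  rw [habs, ht'] at g0 g1 g2 g3
  exact ⟨g0, g1, g2, g3⟩

end Vale.Agent.P011.D4W.H183
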